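import Vale.Agent.Lib.P154.SN.Prog

/-! Generated certificates. -/

namespace Vale.Agent.Lib.P154

namespace SN

open Tr in
theorem tc137 : chk TKAu gsA (s0 (s1 (s0 (s1 (s0 l l) (s0 l l)) (s1 (s0 l l) (s0 l l))) (s0 (s1 (s0 l l) (s0 l l)) (s1 (s0 l l) (s0 l l)))) (s1 (s0 (s1 (s0 l l) (s0 l l)) (s1 (s0 l l) (s0 l l))) (s0 (s1 (s0 l l) (s0 l l)) (s1 (s0 l l) (s0 l l)))))
    (Bx.mk 281474988244992 11534336 281475117219840 6291456 281474976710656 0 281474976710656 0) = true := by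
  decide +kernel

open Tr in
theorem tc138 : chk TKAu gsA (s0 (s1 (s0 (s1 (s0 l l) (s0 l l)) (s1 (s0 l l) (s0 l l))) (s0 (s1 (s0 l l) l) (s1 (s0 l l) (s0 l l)))) (s1 (s0 (s1 (s0 l l) (s0 l l)) (s1 (s0 l l) (s0 l l))) (s0 (s1 (s0 l l) (s0 l l)) (s1 (s0 l l) (s0 l l)))))
    (Bx.mk 281474988244992 11534336 281475129802752 6291456 281474976710656 0 281474976710656 0) = true := by
  decide +kernel

open Tr in
theorem tc139 : chk TKAu gsA (s1 (s0 (s1 (s0 (s1 (s0 l l) (s0 l l)) (s1 (s0 l l) (s0 l l))) (s0 (s1 (s0 l l) (s0 l l)) (s1 (s0 l l) (s0 l l)))) (s1 (s0 (s1 (s0 l l) (s0 l l)) (s1 (s0 l (d 1)) (s0 l (d 1)))) (s0 (s1 (s0 l l) (s0 l l)) (s1 (s0 l (d 1)) (s0 l (d 1)))))) (s0 (s1 (s0 (s1 (s0 l l) (s0 l l)) (s1 (s0 l l) (s0 l l))) (s0 (s1 (s0 l l) (s0 l l)) (s1 (s0 l l) (s0 l l)))) (s1 (s0 (s1 (s0 l l) (s0 l l)) (s1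 (s0 l (d 0)) (d 0))) (s0 (s1 (s0 l (d 0)) (d 0)) (d 0)))))
    (Bx.mk 281475011313664 11534336 281475123511296 12582912 281474976710656 0 281474976710656 0) = true := by
  decide +kernel

open Tr in
theorem tc140 : chk TKAu gsA (s0 (s1 (s0 (s1 (s0 (s1 l l) (s1 (s0 l l) (s0 l l))) (s0 l (s1 l l))) (s1 (s0 (s1 (s0 l l) (s0 l l)) (s1 (s0 l l) (s0 l l))) (s0 (s1 l l) (s1 (s0 l l) (s0 l l))))) (s0 (s1 (s0 l l) (s0 l l)) (s1 (s0 (s1 l l) (s1 l l)) (s0 l (s1 l l))))) (s1 (s0 (s1 (s0 (s1 (s0 l l) (s0 l l)) (s1 (s0 l l) (s0 l (d 0)))) (s0 (s1 (s0 l l) (s0 l l)) (s1 (s0 l (d 0)) (d 0)))) (s1 (d 0) (d 0))) (s0 (s1 (s0 (s1 (s0 l l) l) (d 0)) (s0 (s1 l l) (d 0))) (d 0))))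
    (Bx.mk 281474999779328 23068672 281475148677120 12582912 281474976710656 0 281474976710656 0) = true := by
  decide +kernel

open Tr in
theorem tc141 : chk TKAu gsA (s1 (s0 (s1 (s0 (s1 (s0 l l) (s0 l l)) (s1 (s0 l (s1 l l)) (s0 l l))) (s0 (s1 (s0 l l) (s0 l l)) (s1 (s0 l l) (s0 l l)))) (s1 (s0 (s1 (s0 (s1 l l) (d 0)) (s0 (s1 (d 0) (d 0)) (d 0))) (d 0)) (s0 (s1 (d 0) (d 0)) (d 0)))) (s0 (s1 (s0 (s1 (s0 l l) (s0 l l)) (s1 (s0 l l) (s0 l l))) (s0 (s1 (s0 l l) (s0 l l)) (s1 (s0 l l) (s0 l l)))) (s1 (s0 (d 0) (d 0)) (s0 (d 0) (d 0)))))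
    (Bx.mk 281474999779328 23068672 281475186425856 25165824 281474976710656 0 281474976710656 0) = true := by
  decide +kernel

open Tr in
theorem tc142 : chk TKAu gsA (s1 (s1 (s0 (s1 (s0 (s1 (s0 l l) (s0 l l)) (s1 (s0 l l) (s0 l (d 0)))) (s0 (s1 (s0 l l) (s0 l l)) (s1 (s0 l (d 0)) (s0 l (d 0))))) (s1 (s0 (d 0) (d 0)) (s0 (d 0) (d 0)))) (s0 (s1 (s0 (s1 (s0 l l) (s0 l l)) (s1 (s0 l (d 0)) (s0 l (d 0)))) (s0 (s1 (s0 l l) (s0 l l)) (s1 (s0 l (d 0)) (s0 l (d 0))))) (s1 (s0 (d 0) (d 0)) (s0 (d 0) (d 0))))) (s1 (s0 (s1 (s0 (s1 (s0 l l) (s0 l l)) (s1 (s0 l (d 0)) (s0 l (d 0)))) (s0 (s1 (s0 l l) (s0 l l)) (s1 (s0 l (d 0)) (s0 l (d 0))))) (s1 (s0 (d 0) (d 0)) (s0 (d 0) (d 0)))) (s0 (s1 (s0 (s1 (s0 l l) (s0 l l)) (s1 (s0 l (d 0)) (s0 l (d 0)))) (s0 (s1 (s0 l l) (s0 l l)) (s1 (s0 l (d 0)) (s0 l (d 0))))) (s1 (s0 (d 0) (d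 0)) (s0 (d 0) (d 0))))))
    (Bx.mk 281474999779328 23068672 281475261923328 50331648 281474976710656 0 281474976710656 0) = true := by
  decide +kernel

end SN

end Vale.Agent.Lib.P154
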