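import Vale.Agent.Lib.P154.SN.Prog

/-! Generated certificates. -/

namespace Vale.Agent.Lib.P154

namespace SN

open Tr in
theorem tc169 : chk TKBu gsA (s1 (s0 (s1 (s0 l l) (s0 l l)) (s1 (s0 (s1 l l) (s1 (s0 l l) (s0 l l))) (s0 (s1 l l) (s1 (s0 l l) l)))) (s0 (s1 (s0 l l) (s0 l l)) (s1 (s0 l (s1 l l)) (s0 l (s1 l l)))))
    (Bx.mk 281474982477824 5767168 281475167551488 6291456 281474976710656 0 281474976710656 0) = true := by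
  decide +kernel

open Tr in
theorem tc170 : chk TKBu gsA (s1 (s0 (s1 (s0 (s1 (s0 l l) (s0 l l)) (s1 (s0 l l) (s0 l l))) (s0 (s1 (s0 l l) (s0 l l)) (s1 (s0 l l) (s0 l l)))) (s1 (s0 (s1 (s0 l l) (s0 l l)) (s1 (s0 l l) (s0 l l))) (s0 (s1 (s0 l l) (s0 l l)) (s1 (s0 l l) (s0 l l))))) (s0 (s1 (s0 (s1 (s0 l l) l) (s1 (s0 l l) (s0 l l))) (s0 (s1 l l) (s1 (s0 l l) l))) (s1 (s0 (s1 (s0 l l) (s0 l l)) (s1 (s0 l l) (s0 l l))) (s0 (s1 (s0 l l) (s0 l l)) (s1 (s0 l l) (s0 l l))))))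
    (Bx.mk 281474994012160 5767168 281475167551488 6291456 281474976710656 0 281474976710656 0) = true := by
  decide +kernel

open Tr in
theorem tc171 : chk TKBu gsA (s0 (s1 (s0 (s1 (s0 l l) (s0 l l)) (s1 (s0 l (s1 l l)) (s0 l l))) (s0 (s1 (s0 l l) (s0 l l)) (s1 (s0 l l) (s0 l l)))) (s1 (s0 (s1 (s0 (s1 l l) (s1 l l)) (s0 (s1 l l) (s1 l l))) (s1 (s0 (s1 (s0 l l) l) (s1 (s0 l l) l)) (s0 (s1 l l) (s1 l l)))) (s0 (s1 (s0 (s1 l l) (s1 l l)) (s0 l (s1 l l))) (s1 (s0 (s1 l l) (s1 l l)) (s0 (s1 l l) (s1 l (d 0)))))))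
    (Bx.mk 281474988244992 11534336 281475180134400 6291456 281474976710656 0 281474976710656 0) = true := by
  decide +kernel

open Tr in
theorem tc172 : chk TKBu gsA (s1 (s0 (s1 (s0 (s1 (s0 (s1 (s0 l (d 0)) (s0 l (d 0))) (d 0)) (s0 (s1 (s0 l (d 0)) (s0 l (d 0))) (d 0))) (d 0)) (s0 (s1 (d 0) (d 0)) (d 0))) (d 0)) (s0 (s1 (d 0) (d 0)) (d 0)))
    (Bx.mk 281475011313664 11534336 281475173842944 12582912 281474976710656 0 281474976710656 0) = true := by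
  decide +kernel

open Tr in
theorem tc173 : chk TKBu gsA (s0 (s1 (s0 (s1 (s0 (s1 (s0 l l) (s0 l l)) (s1 (s0 l l) (s0 l l))) (s0 (s1 (s0 l l) (s0 l l)) (s1 (s0 l l) (s0 l l)))) (s1 (s0 (s1 (s0 l l) (s0 l l)) (s1 (s0 (s1 l l) (d 0)) (s0 l (d 0)))) (s0 (s1 (s0 l l) (s0 l l)) (s1 (s0 l (d 0)) (s0 l (d 0)))))) (s0 (s1 (s0 (s1 (s0 l l) (s0 l l)) (s1 (s0 l l) (s0 l l))) (s0 (s1 (s0 l l) (s0 l l)) (s1 (s0 l l) (s0 l l)))) (s1 (s0 (s1 (s0 l l) (s0 l l)) (s1 (s0 l (d 0)) (s0 l (d 0)))) (s0 (s1 (s0 l l) (s0 l l)) (s1 (s0 l (d 0)) (s0 l (d 0))))))) (s1 (s0 (d 0) (d 0)) (s0 (d 0) (d 0))))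
    (Bx.mk 281474999779328 23068672 281475199008768 12582912 281474976710656 0 281474976710656 0) = true := by
  decide +kernel

open Tr in
theorem tc174 : chk TKBu gsA (s0 (s1 (s0 (s1 (s0 (s1 (s0 l l) (s0 l l)) (s1 (s0 l l) (s0 l l))) (s0 (s1 (s0 l l) (s0 l l)) (s1 (s0 l l) (s0 l l)))) (s1 (s0 (s1 (s0 l l) (s0 l l)) (s1 (s0 (d 0) (d 0)) (d 0))) (s0 (s1 (s0 l l) (s0 l l)) (d 0)))) (s0 (s1 (s0 (s1 (s0 l l) (s0 l l)) (s1 (s0 l l) (s0 l l))) (s0 (s1 (s0 l l) (s0 l l)) (s1 (s0 l l) (s0 l l)))) (s1 (s0 (s1 (s0 l l) (s0 l l)) (d 0)) (s0 (s1 (s0 l l) (s0 l l)) (d 0))))) (s1 (s0 (d 0) (d 0)) (s0 (d 0) (d 0))))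
    (Bx.mk 281474999779328 23068672 281475224174592 12582912 281474976710656 0 281474976710656 0) = true := by
  decide +kernel

end SN

end Vale.Agent.Lib.P154
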